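import Vale.Agent.P159.H873.Ren

/-!
The stiffness of the wired block and the helicity modulus as functions of the inverse temperature.
-/

set_option linter.all false
set_option autoImplicit false

open MeasureTheory Filter Topology
open scoped BigOperators

namespace Vale.Agent.P159.H873

open Vale.Agent.P159 Vale.Agent.P159.UJ

theorem stiff_qf {l : ℕ} (hl : 1 ≤ l) (b : ℝ) :
    qf muInf (fun _ : BI l => (1 : ℝ) / 2) (chi0 l) hh b = (l : ℝ) ^ 2 * stiff l b := by
  unfold qf
  have h : (fun _ : BI l => b * ((1 : ℝ) / 2)) = fun _ => b / 2 := by ext; ring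
  rw [h, Q_h l b hl]

theorem sum_hh_sq (l : ℕ) : ∑ e : BI l, (1 : ℝ) / 2 * hh e ^ 2 = (l : ℝ) ^ 2 := by
  rw [sum_BI]
  simp only [hh]
  norm_num
  ring

section Triv

variable {G : Type*} [AddCommGroup G] [TopologicalSpace G] [IsTopologicalAddGroup G]
  [CompactSpace G] [SecondCountableTopology G] [MeasurableSpace G] [BorelSpace G]
  {μ : Measure G} [μ.IsAddHaarMeasure] [IsProbabilityMeasure μ]
  {κ : Type*} [Fintype κ]

theorem DD_triv (J : κ → ℝ) (χ : κ → Chr G) (a : κ → ℝ) (A : Chr G) (h : ℝ)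
    (hc : ∀ x, A.c x = 1) (hs : ∀ x, A.s x = 0) : DD μ J χ a A h = h * h := by
  have h1 : gE μ (En J χ) A.c = 1 := by
    unfold gE
    simp only [hc, one_mul]
    exact div_self (wpos (cont_En J χ)).ne'
  unfold DD cv
  rw [h1]
  simp only [hc, hs, mul_one, mul_zero, gE_zero]
  ring

end Triv

/-- the stiffness is differentiable in the inverse temperature, with the derivative bounded below
by `(stiff / b)²` -/
theorem stiff_deriv {l : ℕ} (hl : 1 ≤ l) {b : ℝ} (hb : 0 ≤ b) :
    ∃ v : ℝ, HasDerivAt (stiff l) v b ∧ 1 / (2 * (l : ℝ) ^ 2) ≤ v ∧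
      (0 < b → (stiff l b / b) ^ 2 ≤ v) := by
  have hl0 : (0 : ℝ) < l := by exact_mod_cast hl
  have hl2 : (0 : ℝ) < (l : ℝ) ^ 2 := by positivity
  have hd := hasDerivAt_qf (μ := muInf) (fun _ : BI l => (1 : ℝ) / 2) (chi0 l) hh b
  obtain ⟨V, hV⟩ : ∃ V, V = ∑ e : BI l, (1 : ℝ) / 2 *
    DD muInf (fun _ => b * ((1 : ℝ) / 2)) (chi0 l) hh (chi0 l e) (hh e) := ⟨_, rfl⟩
  rw [← hV] at hd
  have hw : ∀ _ : BI l, (0 : ℝ) ≤ b * (1 / 2) := fun _ => by positivity
  refine ⟨V / (l : ℝ) ^ 2, ?_, ?_, ?_⟩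
  · have h1 := hd.div_const ((l : ℝ) ^ 2)
    refine h1.congr_of_eventuallyEq (Eventually.of_forall fun x => ?_)
    show stiff l x = qf muInf (fun _ : BI l => (1 : ℝ) / 2) (chi0 l) hh x / (l : ℝ) ^ 2
    rw [stiff_qf hl]
    field_simp
  · have h0 : (0 : ℕ) < l := hl
    have h1 : (1 : ℝ) / 2 * DD muInf (fun _ => b * ((1 : ℝ) / 2)) (chi0 l) hh
        (chi0 l ((⟨0, h0⟩, ⟨0, h0⟩), (false, false))) (hh (((⟨0, h0⟩, ⟨0, h0⟩), (false, false)) : BI l)) ≤ V := by
      rw [hV]
      exact Finset.single_le_sum (f := fun e : BI l => (1 : ℝ) / 2 *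
        DD muInf (fun _ => b * ((1 : ℝ) / 2)) (chi0 l) hh (chi0 l e) (hh e))
        (fun e _ => mul_nonneg (by norm_num) (DD_nonneg pi_div2 hw _ _ _ _)) (Finset.mem_univ _)
    have hn1 : ((0, 0) : ℤ × ℤ) ∉ (inner l : Set (ℤ × ℤ)) := by
      simp [inner]
    have hn2 : ((1, 0) : ℤ × ℤ) ∉ (inner l : Set (ℤ × ℤ)) := by
      simp [inner]
    rw [DD_triv] at h1
    · have e1 : hh (((⟨0, h0⟩, ⟨0, h0⟩), (false, false)) : BI l) = 1 := rfl
      rw [e1] at h1
      rw [div_le_div_iff₀ (by positivity) hl2]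
      nlinarith
    · intro x
      show cosT (proj (inner l : Set (ℤ × ℤ)) x _ - proj (inner l : Set (ℤ × ℤ)) x _) = 1
      have e1 : bu (((⟨0, h0⟩, ⟨0, h0⟩), (false, false)) : BI l) = (0, 0) := by
        simp [bu]
      have e2 : bv (((⟨0, h0⟩, ⟨0, h0⟩), (false, false)) : BI l) = (1, 0) := by
        simp [bv, bu]
      rw [e1, e2, proj_of_notMem hn1, proj_of_notMem hn2, sub_zero, cosT_zero]
    · intro x
      show sinT (proj (inner l : Set (ℤ × ℤ)) x _ - proj (inner l : Set (ℤ × ℤ)) x _) = 0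
      have e1 : bu (((⟨0, h0⟩, ⟨0, h0⟩), (false, false)) : BI l) = (0, 0) := by
        simp [bu]
      have e2 : bv (((⟨0, h0⟩, ⟨0, h0⟩), (false, false)) : BI l) = (1, 0) := by
        simp [bv, bu]
      rw [e1, e2, proj_of_notMem hn1, proj_of_notMem hn2, sub_zero, sinT_zero]
  · intro hb0
    have h1 := qf_ineq (μ := muInf) pi_div2 (w := fun _ : BI l => (1 : ℝ) / 2)
      (fun _ => by norm_num) (chi0 l) hh hb0
    rw [sum_hh_sq, ← hV, stiff_qf hl] at h1
    rw [le_div_iff₀ hl2]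
    have h2 : ((l : ℝ) ^ 2 * stiff l b / b) ^ 2 = (l : ℝ) ^ 2 * ((stiff l b / b) ^ 2 * (l : ℝ) ^ 2) := by
      ring
    rw [h2] at h1
    exact le_of_mul_le_mul_left h1 hl2

theorem stiff_cont {l : ℕ} (hl : 1 ≤ l) {b : ℝ} (hb : 0 ≤ b) : ContinuousAt (stiff l) b := by
  obtain ⟨v, h, _⟩ := stiff_deriv hl hb
  exact h.continuousAt

/-- the stiffness is nondecreasing in the inverse temperature -/
theorem stiff_monotoneOn {l : ℕ} (hl : 1 ≤ l) : MonotoneOn (stiff l) (Set.Ici 0) := by
  refine monotoneOn_of_deriv_nonneg (convex_Ici 0)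
    (fun b hb => (stiff_cont hl hb).continuousWithinAt) ?_ ?_
  · intro b hb
    rw [interior_Ici] at hb
    obtain ⟨v, h, _⟩ := stiff_deriv hl (le_of_lt hb)
    exact h.differentiableAt.differentiableWithinAt
  · intro b hb
    rw [interior_Ici] at hb
    obtain ⟨v, h, h1, _⟩ := stiff_deriv hl (le_of_lt hb)
    rw [h.deriv]
    refine le_trans ?_ h1
    positivity

theorem stiff_pos {l : ℕ} (hl : 1 ≤ l) {b : ℝ} (hb : 0 < b) : 0 < stiff l b := by
  have hl0 : (0 : ℝ) < l := by exact_mod_cast hl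
  have hs : StrictMonoOn (stiff l) (Set.Ici 0) := by
    refine strictMonoOn_of_deriv_pos (convex_Ici 0)
      (fun b hb => (stiff_cont hl hb).continuousWithinAt) ?_
    intro b hb
    rw [interior_Ici] at hb
    obtain ⟨v, h, h1, _⟩ := stiff_deriv hl (le_of_lt hb)
    rw [h.deriv]
    refine lt_of_lt_of_le ?_ h1
    positivity
  have h0 := hs (Set.self_mem_Ici) (Set.mem_Ici.2 hb.le) hb
  have h1 := stiff_nonneg' (le_refl (0 : ℝ)) hl
  linarith

/-- the renormalisation inequality -/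
theorem stiff_ren {l : ℕ} (hl : 1 ≤ l) {b b' : ℝ} (hb : 0 < b) (h : b ≤ b') :
    1 / stiff l b' - 1 / b' ≤ 1 / stiff l b - 1 / b := by
  have hanti : AntitoneOn (fun x => 1 / stiff l x - 1 / x) (Set.Ioi 0) := by
    have hder : ∀ x : ℝ, 0 < x → ∃ v, HasDerivAt (fun x => 1 / stiff l x - 1 / x) v x ∧ v ≤ 0 := by
      intro x hx
      obtain ⟨v, h1, _, h3⟩ := stiff_deriv hl hx.le
      have hp := stiff_pos hl hx
      have h4 := h3 hx
      have d1 := (h1.inv hp.ne').sub (hasDerivAt_inv hx.ne')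
      refine ⟨-v / stiff l x ^ 2 - -(x ^ 2)⁻¹, ?_, ?_⟩
      · refine d1.congr_of_eventuallyEq (Eventually.of_forall fun y => ?_)
        simp [one_div]
      · have h5 : (x ^ 2)⁻¹ ≤ v / stiff l x ^ 2 := by
          rw [le_div_iff₀ (by positivity)]
          rw [div_pow] at h4
          rw [inv_mul_eq_div]
          exact h4
        rw [neg_div]
        linarith
    refine antitoneOn_of_deriv_nonpos (convex_Ioi 0) ?_ ?_ ?_
    · intro x hx
      obtain ⟨v, h1, _⟩ := hder x hx
      exact h1.continuousAt.continuousWithinAt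
    · intro x hx
      rw [interior_Ioi] at hx
      obtain ⟨v, h1, _⟩ := hder x hx
      exact h1.differentiableAt.differentiableWithinAt
    · intro x hx
      rw [interior_Ioi] at hx
      obtain ⟨v, h1, h2⟩ := hder x hx
      rw [h1.deriv]
      exact h2
  exact hanti (Set.mem_Ioi.2 hb) (Set.mem_Ioi.2 (hb.trans_le h)) h

/-! ### the helicity modulus -/

theorem hel_bdd {b : ℝ} (hb : 0 ≤ b) : BddBelow (Set.range fun l : ℕ => stiff (l + 1) b) :=
  ⟨0, by rintro _ ⟨l, rfl⟩; exact stiff_nonneg' hb (Nat.succ_le_succ (Nat.zero_le l))⟩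

theorem hel_le {b : ℝ} (hb : 0 ≤ b) {l : ℕ} (hl : 1 ≤ l) : helicity b ≤ stiff l b := by
  have h := ciInf_le (hel_bdd hb) (l - 1)
  have e : l - 1 + 1 = l := by omega
  simp only [e] at h
  exact h

theorem hel_nonneg {b : ℝ} (hb : 0 ≤ b) : 0 ≤ helicity b :=
  le_ciInf fun l => stiff_nonneg' hb (Nat.succ_le_succ (Nat.zero_le l))

/-- the helicity modulus is nondecreasing -/
theorem hel_mono {b b' : ℝ} (hb : 0 ≤ b) (h : b ≤ b') : helicity b ≤ helicity b' :=
  le_ciInf fun l => (hel_le hb (Nat.succ_le_succ (Nat.zero_le l))).trans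
    (stiff_monotoneOn (Nat.succ_le_succ (Nat.zero_le l)) hb (hb.trans h) h)

/-- the helicity modulus is continuous from the right -/
theorem hel_right {b : ℝ} (hb : 0 < b) : ContinuousWithinAt helicity (Set.Ici b) b := by
  rw [Metric.continuousWithinAt_iff]
  intro ε hε
  obtain ⟨l, hl⟩ : ∃ l : ℕ, stiff (l + 1) b < helicity b + ε := by
    have := exists_lt_of_ciInf_lt (f := fun l : ℕ => stiff (l + 1) b)
      (show (⨅ l : ℕ, stiff (l + 1) b) < helicity b + ε from by
        show helicity b < helicity b + ε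
        linarith)
    exact this
  have hl1 : 1 ≤ l + 1 := Nat.succ_le_succ (Nat.zero_le l)
  have hc := stiff_cont hl1 hb.le
  have hev : ∀ᶠ x in 𝓝 b, stiff (l + 1) x < helicity b + ε := hc.eventually_lt continuousAt_const hl
  obtain ⟨δ, hδ, hδ'⟩ := Metric.eventually_nhds_iff.1 hev
  refine ⟨δ, hδ, fun x hx hxd => ?_⟩
  have h1 := hδ' hxd
  have hx' : b ≤ x := hx
  have h2 := hel_mono hb.le hx'
  have h3 := hel_le (hb.le.trans hx') hl1
  rw [Real.dist_eq, abs_lt]
  constructor <;> linarith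

/-- the renormalisation inequality for the helicity modulus -/
theorem hel_ren {b b' : ℝ} (hb : 0 < b) (h : b ≤ b') (hpos : 0 < helicity b) :
    1 / helicity b' - 1 / b' ≤ 1 / helicity b - 1 / b := by
  have hb' : 0 < b' := hb.trans_le h
  have hpos' : 0 < helicity b' := hpos.trans_le (hel_mono hb.le h)
  have hle1 : helicity b ≤ b := by
    have := hel_le hb.le (le_refl 1)
    rwa [stiff_one] at this
  have h1b : 1 / b ≤ 1 / helicity b := one_div_le_one_div_of_le hpos hle1
  have hD : 0 < 1 / helicity b - 1 / b + 1 / b' := by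
    have : 0 < 1 / b' := by positivity
    linarith
  have key : 1 / (1 / helicity b - 1 / b + 1 / b') ≤ helicity b' := by
    refine le_ciInf fun l => ?_
    have hl1 : 1 ≤ l + 1 := Nat.succ_le_succ (Nat.zero_le l)
    have h1 := stiff_ren hl1 hb h
    have h2 : 1 / stiff (l + 1) b ≤ 1 / helicity b :=
      one_div_le_one_div_of_le hpos (hel_le hb.le hl1)
    have h3 := stiff_pos hl1 hb'
    rw [div_le_iff₀ hD]
    have h4 : 1 / stiff (l + 1) b' ≤ 1 / helicity b - 1 / b + 1 / b' := by linarith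
    rw [div_le_iff₀ h3] at h4
    linarith
  have h5 : 1 / helicity b' ≤ 1 / helicity b - 1 / b + 1 / b' := by
    rw [div_le_iff₀ hpos']
    rw [div_le_iff₀ hD] at key
    linarith
  linarith

/-- above the critical point the mass vanishes -/
theorem mass_zero_of_ge {b : ℝ} (hbc : 0 < bCrit) (h : bCrit ≤ b) : mass b = 0 := by
  have hb : 0 < b := hbc.trans_le h
  rw [mass_zero_iff hb]
  intro l hl
  exact (jump hbc (XY.mass_bCrit hbc) hl).trans (stiff_monotoneOn hl hbc.le hb.le h)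

theorem hel_crit (hbc : 0 < bCrit) : 2 / Real.pi ≤ helicity bCrit :=
  helicity_massless hbc (XY.mass_bCrit hbc)

/-- lower bound above the critical point -/
theorem hel_lower (hbc : 0 < bCrit) {b : ℝ} (h : bCrit ≤ b) :
    0 < Real.pi / 2 - 1 / bCrit + 1 / b ∧
      1 / (Real.pi / 2 - 1 / bCrit + 1 / b) ≤ helicity b := by
  have hpi := Real.pi_pos
  have hb : 0 < b := hbc.trans_le h
  have hc := hel_crit hbc
  have hcp : 0 < helicity bCrit := lt_of_lt_of_le (by positivity) hc
  have hle1 : helicity bCrit ≤ bCrit := by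
    have := hel_le hbc.le (le_refl 1)
    rwa [stiff_one] at this
  have h1 : 1 / helicity bCrit ≤ Real.pi / 2 := by
    have := one_div_le_one_div_of_le (by positivity) hc
    rwa [one_div_div] at this
  have h2 : 1 / bCrit ≤ 1 / helicity bCrit := one_div_le_one_div_of_le hcp hle1
  have h3 : 0 < 1 / b := by positivity
  have h4 := hel_ren hbc h hcp
  have hpos : 0 < helicity b := hcp.trans_le (hel_mono hbc.le h)
  have hD : 0 < Real.pi / 2 - 1 / bCrit + 1 / b := by linarith
  refine ⟨hD, ?_⟩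
  rw [div_le_iff₀ hD]
  have h5 : 1 / helicity b ≤ Real.pi / 2 - 1 / bCrit + 1 / b := by linarith
  rw [div_le_iff₀ hpos] at h5
  linarith

/-- the helicity modulus is strictly increasing in the massless phase -/
theorem hel_strict (hbc : 0 < bCrit) : StrictMonoOn helicity (Set.Ici bCrit) := by
  intro b hb b' hb' hlt
  have hb0 : 0 < b := hbc.trans_le hb
  have hpi := Real.pi_pos
  have hpos : 0 < helicity b :=
    (lt_of_lt_of_le (by positivity) (hel_crit hbc)).trans_le (hel_mono hbc.le hb)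
  have h1 := hel_ren hb0 hlt.le hpos
  have h2 : 1 / b' < 1 / b := one_div_lt_one_div_of_lt hb0 hlt
  have hpos' : 0 < helicity b' := hpos.trans_le (hel_mono hb0.le hlt.le)
  have h3 : 1 / helicity b' < 1 / helicity b := by linarith
  exact (one_div_lt_one_div hpos' hpos).1 h3

end Vale.Agent.P159.H873
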