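import Vale.Agent.P159.H177.Exp
import Vale.Agent.P159.H454.Defs

/-!
Correlations of several charges in terms of the helicity modulus.
-/

set_option linter.all false
set_option autoImplicit false

open MeasureTheory Filter Topology
open scoped BigOperators

namespace Vale.Agent.P159.H873

open Vale.Agent.P159 Vale.Agent.P159.UJ Vale.Agent.P159.H454

/-- a block whose stiffness is small enough for the exponent `κ` -/
theorem exists_block_lt {b κ : ℝ} (hb : 0 < b) (hκ : κ * (4 * Real.pi * helicity b) < 1) :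
    ∃ l : ℕ, 1 ≤ l ∧ κ ≤ 1 / (4 * Real.pi * stiff l b) := by
  have hpi := Real.pi_pos
  rcases le_or_gt κ 0 with h0 | h0
  · refine ⟨1, le_refl 1, h0.trans ?_⟩
    have := stiff_pos (le_refl 1) hb
    positivity
  · have h1 : helicity b < 1 / (κ * (4 * Real.pi)) := by
      rw [lt_div_iff₀ (by positivity)]
      linarith
    obtain ⟨l, hl, h2⟩ := Vale.Agent.P159.H177.exists_stiff_lt h1
    refine ⟨l, hl, ?_⟩
    have hS := stiff_pos hl hb
    rw [lt_div_iff₀ (by positivity)] at h2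
    rw [le_div_iff₀ (by positivity)]
    linarith

/-- several charges: every exponent below `1 / (4 π Y)` per unit of squared charge -/
theorem charges (H : ChargeBound) {b κ : ℝ} (hb : 0 < b)
    (hκ : κ * (4 * Real.pi * helicity b) < 1) (k : ℕ) (m : Fin k → ℤ) :
    ∃ K : ℝ, ∀ (x : Fin k → ℤ × ℤ) (d : Fin k → ℕ), (∀ j, 1 ≤ d j) →
      (∀ i j, i ≠ j → (d i : ℤ) ≤ max |(x i - x j).1| |(x i - x j).2|) →
      ∃ c : ℝ, Tendsto (fun R : ℕ => expect (boxEnergy R b)
          fun θ => Real.Angle.cos (∑ j, m j • ext θ (x j))) atTop (𝓝 c) ∧ 0 ≤ c ∧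
        c ≤ K * ∏ j, (d j : ℝ) ^ (-(κ * (m j : ℝ) ^ 2)) := by
  obtain ⟨l, hl, h⟩ := exists_block_lt hb hκ
  obtain ⟨K, hK, hK2⟩ := H l hl b hb.le k m
  refine ⟨K, fun x d hd hdist => ?_⟩
  obtain ⟨_, c, h1, h2, h3⟩ := hK2 x d hd hdist
  refine ⟨c, h1, h2, h3.trans ?_⟩
  refine mul_le_mul_of_nonneg_left ?_ hK.le
  refine Finset.prod_le_prod (fun j _ => by positivity) fun j _ => ?_
  refine Real.rpow_le_rpow_of_exponent_le (by exact_mod_cast hd j) ?_
  have : κ * (m j : ℝ) ^ 2 ≤ (m j : ℝ) ^ 2 / (4 * Real.pi * stiff l b) := by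
    rw [div_eq_mul_one_div, mul_comm]
    exact mul_le_mul_of_nonneg_left h (by positivity)
  linarith

end Vale.Agent.P159.H873
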