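import Vale.Agent.P159.H873.Mono
import Vale.Agent.P159.H177.Lim
import Vale.Agent.P159.H177.Exp
import Vale.Agent.P159.H873.ChargeN
import Vale.Agent.P159.H454.Final

/-!
The helicity modulus of the square-lattice XY model: collected statements.
-/

set_option linter.all false
set_option autoImplicit false

open MeasureTheory Filter Topology
open scoped BigOperators

namespace Vale.Agent.P159.H873

open Vale.Agent.P159 Vale.Agent.P159.UJ

/-- the old hand-in `UniversalJump` -/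
theorem old :
    (∀ b : ℝ, 0 < b →
      (∀ x : ℤ × ℤ, Tendsto (fun R : ℕ => corr R b x) atTop (𝓝 (corrInf b x))) ∧
      Tendsto (fun r : ℕ => -(1 / (r : ℝ)) * Real.log (corrInf b ((r : ℤ), 0))) atTop
        (𝓝 (mass b)) ∧ 0 ≤ mass b) ∧
    (∀ b : ℝ, 0 < b →
      (mass b = 0 → 2 / Real.pi ≤ helicity b ∧ ∀ l : ℕ, 1 ≤ l → 2 / Real.pi ≤ stiff l b) ∧
      (0 < mass b → helicity b = 0 ∧ ∃ C : ℝ, ∀ l : ℕ, 1 ≤ l → stiff l b ≤ C / l)) ∧
    (0 < bCrit → mass bCrit = 0 ∧ 2 / Real.pi ≤ helicity bCrit ∧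
      ∀ b : ℝ, 0 < b → b < bCrit → 0 < mass b ∧ helicity b = 0) ∧
    (∀ b : ℝ, 0 < b → stiff 1 b = b ∧ (∀ l : ℕ, 2 ≤ l → stiff l b < b) ∧
      ∀ l n : ℕ, 1 ≤ l → 1 ≤ n → 0 ≤ stiff (l * n) b ∧ stiff (l * n) b ≤ stiff l b) ∧
    (∀ b : ℝ, 0 < b → ∀ l : ℕ, 1 ≤ l → ∃ K : ℝ, ∀ r : ℕ, 1 ≤ r →
      corrInf b ((r : ℤ), 0) ≤ K * (r : ℝ) ^ (-(1 / (2 * Real.pi * stiff l b)))) ∧
    (∀ l : ℕ, 1 ≤ l → ∀ ν : ℝ, ν < 1 / (2 - 1 / (2 * Real.pi * stiff l bCrit)) →
      ∃ c δ : ℝ, 0 < c ∧ 0 < δ ∧ ∀ b : ℝ, 0 < b → bCrit - δ < b → b < bCrit →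
        c * (bCrit - b) ^ (-ν) ≤ corrLength b) ∧
    (∀ b : ℝ, 0 < b → b < bCrit →
      Summable (corrInf b) ∧
      1 / (2 * (bCrit - b)) ≤ ∑' x : ℤ × ℤ, corrInf b x ∧
      1 / 4 * Real.sqrt (1 / (bCrit - b) - 2) ≤ corrLength b) := by
  refine ⟨fun b hb => ⟨fun x => ?_, XY.tendsto_mass hb, XY.mass_nonneg hb⟩,
    fun b hb => ⟨fun hm => ⟨UJ.helicity_massless hb hm, fun l hl => UJ.jump hb hm hl⟩,
      fun hm => ⟨UJ.helicity_massive hb hm, stiff_le_of_mass_pos hb hm⟩⟩,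
    fun hbc => ⟨XY.mass_bCrit hbc, UJ.helicity_massless hbc (XY.mass_bCrit hbc),
      fun b hb hlt => ⟨XY.mass_pos_of_lt_bCrit hb hlt,
        UJ.helicity_massive hb (XY.mass_pos_of_lt_bCrit hb hlt)⟩⟩,
    fun b hb => ⟨stiff_one b, fun l hl => stiff_lt hl hb, fun l n hl hn =>
      ⟨UJ.stiff_nonneg' hb.le (Nat.mul_pos hl hn), UJ.stiff_mono hb.le hl hn⟩⟩,
    fun b hb l hl => ?_,
    fun l hl ν hν => xi_stiff hl hν, fun b hb hbc => ?_⟩
  · rw [XY.corrInf_eq hb.le]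
    exact XY.tendsto_corr hb.le x
  · obtain ⟨K, _, h⟩ := decay_stiff hb hl
    refine ⟨K, fun r hr => ?_⟩
    rw [XY.corrInf_eq hb.le]
    have hx : (((r : ℤ), 0) : ℤ × ℤ) ≠ 0 := by
      intro h0
      rw [Prod.ext_iff] at h0
      simp only [Prod.fst_zero] at h0
      omega
    have h1 := h ((r : ℤ), 0) hx
    have h2 : ((XY.nm ((r : ℤ), 0) : ℕ) : ℝ) = r := by
      rw [XY.nm_cast]
      simp
    rw [h2] at h1
    exact h1
  · have hm := XY.mass_pos_of_lt_bCrit hb hbc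
    have e : corrInf b = XY.C b := funext fun x => XY.corrInf_eq hb.le x
    refine ⟨?_, ?_, XY.xi_lower hb hbc⟩
    · rw [e]; exact XY.summable_C hb hm
    · rw [e]; exact XY.chi_lower hb hbc

/-- for `y < 1 / (2π Y)` some block stiffness gives a larger exponent -/
theorem exists_block {b y : ℝ} (hb : 0 < b) (hY : 0 < helicity b)
    (hy : y < 1 / (2 * Real.pi * helicity b)) :
    ∃ l : ℕ, 1 ≤ l ∧ y < 1 / (2 * Real.pi * stiff l b) := by
  have hpi := Real.pi_pos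
  have hc : ContinuousAt (fun s : ℝ => 1 / (2 * Real.pi * s)) (helicity b) := by
    apply ContinuousAt.div continuousAt_const
    · exact (continuous_const.mul continuous_id).continuousAt
    · positivity
  have hl := (hc.tendsto.comp (Vale.Agent.P159.H177.tendsto_stiff hb)).eventually
    (lt_mem_nhds hy)
  obtain ⟨l, hl1, hl2⟩ := (hl.and (eventually_ge_atTop 1)).exists
  exact ⟨l, hl2, hl1⟩

/-- power law with any exponent below `1 / (2π Y)` -/
theorem decay_hel {b η : ℝ} (hb : 0 < b) (hY : 0 < helicity b)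
    (hη : η < 1 / (2 * Real.pi * helicity b)) :
    ∃ K : ℝ, ∀ r : ℕ, 1 ≤ r → corrInf b ((r : ℤ), 0) ≤ K * (r : ℝ) ^ (-η) := by
  obtain ⟨l, hl, h⟩ := exists_block hb hY hη
  obtain ⟨K, hK⟩ := old.2.2.2.2.1 b hb l hl
  have hK0 : 0 ≤ K := by
    have h1 := hK 1 le_rfl
    have h2 : 0 ≤ corrInf b (((1 : ℕ) : ℤ), 0) := by
      rw [XY.corrInf_eq hb.le]
      exact XY.C_nonneg hb.le _
    simp at h1
    simp at h2
    linarith
  refine ⟨K, fun r hr => (hK r hr).trans ?_⟩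
  refine mul_le_mul_of_nonneg_left ?_ hK0
  exact Real.rpow_le_rpow_of_exponent_le (by exact_mod_cast hr) (by linarith)

/-- lower bound of the correlation length in terms of the helicity modulus at `b_c` -/
theorem xi_hel (hbc : 0 < bCrit) {ν : ℝ} (hν : ν < 1 / (2 - 1 / (2 * Real.pi * helicity bCrit))) :
    ∃ c δ : ℝ, 0 < c ∧ 0 < δ ∧ ∀ b : ℝ, 0 < b → bCrit - δ < b → b < bCrit →
      c * (bCrit - b) ^ (-ν) ≤ corrLength b := by
  have hpi := Real.pi_pos
  have hY : 0 < helicity bCrit := lt_of_lt_of_le (by positivity) (hel_crit hbc)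
  have hle : 1 / (2 * Real.pi * helicity bCrit) ≤ 1 / 4 := by
    have h1 := hel_crit hbc
    rw [div_le_iff₀ hpi] at h1
    apply one_div_le_one_div_of_le (by norm_num)
    linarith
  have hc : ContinuousAt (fun s : ℝ => 1 / (2 - 1 / (2 * Real.pi * s))) (helicity bCrit) := by
    apply ContinuousAt.div continuousAt_const
    · apply ContinuousAt.sub continuousAt_const
      apply ContinuousAt.div continuousAt_const
      · exact (continuous_const.mul continuous_id).continuousAt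
      · positivity
    · have : 0 < 2 - 1 / (2 * Real.pi * helicity bCrit) := by linarith
      exact this.ne'
  have hl := (hc.tendsto.comp (Vale.Agent.P159.H177.tendsto_stiff hbc)).eventually
    (lt_mem_nhds hν)
  obtain ⟨l, hl1, hl2⟩ := (hl.and (eventually_ge_atTop 1)).exists
  exact xi_stiff hl2 hl1

/-- above a massless point the mass vanishes -/
theorem mass_zero_of_ge' {c b : ℝ} (hc : 0 < c) (hm : mass c = 0) (h : c ≤ b) : mass b = 0 := by
  rw [mass_zero_iff (hc.trans_le h)]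
  intro l hl
  exact (jump hc hm hl).trans (stiff_monotoneOn hl hc.le (hc.le.trans h) h)

/-- lower bound above a massless point -/
theorem hel_lower' {c b : ℝ} (hc : 0 < c) (hm : mass c = 0) (h : c ≤ b) :
    0 < Real.pi / 2 - 1 / c + 1 / b ∧ 1 / (Real.pi / 2 - 1 / c + 1 / b) ≤ helicity b := by
  have hpi := Real.pi_pos
  have hb : 0 < b := hc.trans_le h
  have hY := helicity_massless hc hm
  have hcp : 0 < helicity c := lt_of_lt_of_le (by positivity) hY
  have hle1 : helicity c ≤ c := by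
    have := hel_le hc.le (le_refl 1)
    rwa [stiff_one] at this
  have h1 : 1 / helicity c ≤ Real.pi / 2 := by
    have := one_div_le_one_div_of_le (by positivity) hY
    rwa [one_div_div] at this
  have h2 : 1 / c ≤ 1 / helicity c := one_div_le_one_div_of_le hcp hle1
  have h3 : 0 < 1 / b := by positivity
  have h4 := hel_ren hc h hcp
  have hpos : 0 < helicity b := hcp.trans_le (hel_mono hc.le h)
  have hD : 0 < Real.pi / 2 - 1 / c + 1 / b := by linarith
  refine ⟨hD, ?_⟩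
  rw [div_le_iff₀ hD]
  have h5 : 1 / helicity b ≤ Real.pi / 2 - 1 / c + 1 / b := by linarith
  rw [div_le_iff₀ hpos] at h5
  linarith

/-- the helicity modulus is strictly increasing above a massless point -/
theorem hel_strict' {c : ℝ} (hc : 0 < c) (hm : mass c = 0) : StrictMonoOn helicity (Set.Ici c) := by
  intro b hb b' hb' hlt
  have hb0 : 0 < b := hc.trans_le hb
  have hpi := Real.pi_pos
  have hpos : 0 < helicity b :=
    (lt_of_lt_of_le (by positivity) (helicity_massless hc hm)).trans_le (hel_mono hc.le hb)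
  have h1 := hel_ren hb0 hlt.le hpos
  have h2 : 1 / b' < 1 / b := one_div_lt_one_div_of_lt hb0 hlt
  have hpos' : 0 < helicity b' := hpos.trans_le (hel_mono hb0.le hlt.le)
  have h3 : 1 / helicity b' < 1 / helicity b := by linarith
  exact (one_div_lt_one_div hpos' hpos).1 h3

/-- power law with every exponent below `1 / (2π Y)`, in all directions -/
theorem decay_all {b η : ℝ} (hb : 0 < b) (hη : η * (2 * Real.pi * helicity b) < 1) :
    ∃ K : ℝ, ∀ x : ℤ × ℤ, x ≠ 0 → corrInf b x ≤ K * ((max |x.1| |x.2| : ℤ) : ℝ) ^ (-η) := by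
  obtain ⟨K, hK⟩ := Vale.Agent.P159.H177.charge_helicity hb 1 (η := η) (by simpa using hη)
  refine ⟨K, fun x hx => ?_⟩
  obtain ⟨c, h1, _, h3⟩ := hK x hx
  have h4 := (old.1 b hb).1 x
  have h5 : (fun R : ℕ => Vale.Agent.P159.H177.corrQ 1 R b x) = fun R : ℕ => corr R b x := by
    funext R
    unfold Vale.Agent.P159.H177.corrQ corr
    simp only [one_smul]
    rfl
  rw [h5] at h1
  rw [tendsto_nhds_unique h4 h1]
  exact h3

/-- the new part -/
theorem new :
    (∀ l : ℕ, 1 ≤ l → ∀ b b' : ℝ, 0 < b → b ≤ b' →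
      0 < stiff l b ∧ 1 / stiff l b' - 1 / b' ≤ 1 / stiff l b - 1 / b) ∧
    (∀ b : ℝ, 0 < b → Tendsto (fun l : ℕ => stiff l b) atTop (𝓝 (helicity b)) ∧
      ContinuousWithinAt helicity (Set.Ici b) b ∧ ∀ b' : ℝ, b ≤ b' → helicity b ≤ helicity b') ∧
    (∀ c : ℝ, 0 < c → mass c = 0 → StrictMonoOn helicity (Set.Ici c) ∧ ∀ b : ℝ, c ≤ b →
      mass b = 0 ∧ 0 < Real.pi / 2 - 1 / c + 1 / b ∧
      1 / (Real.pi / 2 - 1 / c + 1 / b) ≤ helicity b ∧
      ∀ b' : ℝ, b ≤ b' → 1 / helicity b' - 1 / b' ≤ 1 / helicity b - 1 / b) ∧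
    (∀ b η : ℝ, 0 < b → η * (2 * Real.pi * helicity b) < 1 → ∃ K : ℝ, ∀ x : ℤ × ℤ, x ≠ 0 →
      corrInf b x ≤ K * ((max |x.1| |x.2| : ℤ) : ℝ) ^ (-η)) ∧
    (∀ b κ : ℝ, 0 < b → κ * (4 * Real.pi * helicity b) < 1 → ∀ (k : ℕ) (m : Fin k → ℤ),
      ∃ K : ℝ, ∀ (x : Fin k → ℤ × ℤ) (d : Fin k → ℕ), (∀ j, 1 ≤ d j) →
        (∀ i j, i ≠ j → (d i : ℤ) ≤ max |(x i - x j).1| |(x i - x j).2|) →
        ∃ c : ℝ, Tendsto (fun R : ℕ => expect (boxEnergy R b)
            fun θ => Real.Angle.cos (∑ j, m j • ext θ (x j))) atTop (𝓝 c) ∧ 0 ≤ c ∧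
          c ≤ K * ∏ j, (d j : ℝ) ^ (-(κ * (m j : ℝ) ^ 2))) ∧
    (0 < bCrit → ∀ ν : ℝ, ν < 1 / (2 - 1 / (2 * Real.pi * helicity bCrit)) →
      ∃ c δ : ℝ, 0 < c ∧ 0 < δ ∧ ∀ b : ℝ, 0 < b → bCrit - δ < b → b < bCrit →
        c * (bCrit - b) ^ (-ν) ≤ corrLength b) := by
  refine ⟨fun l hl b b' hb h => ⟨stiff_pos hl hb, stiff_ren hl hb h⟩,
    fun b hb => ⟨Vale.Agent.P159.H177.tendsto_stiff hb, hel_right hb, fun b' h => hel_mono hb.le h⟩,
    fun c hc hm => ⟨hel_strict' hc hm, fun b h => ?_⟩,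
    fun b η hb h => decay_all hb h,
    fun b κ hb h k m => charges Vale.Agent.P159.H454.chargeBound hb h k m,
    fun hbc ν hν => xi_hel hbc hν⟩
  have hpi := Real.pi_pos
  have hY : 0 < helicity c := lt_of_lt_of_le (by positivity) (helicity_massless hc hm)
  have hb : 0 < b := hc.trans_le h
  exact ⟨mass_zero_of_ge' hc hm h, (hel_lower' hc hm h).1, (hel_lower' hc hm h).2, fun b' h' =>
    hel_ren hb h' (hY.trans_le (hel_mono hc.le h))⟩

end Vale.Agent.P159.H873
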