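import Vale.Agent.P159.Bdl.B9

/-!
The renormalisation inequality for the stiffness of trigonometric Gibbs measures:
`dQ/db ≥ (Q/b)² / ∑ w a²`.
-/

set_option linter.all false
set_option autoImplicit false

open MeasureTheory Filter Topology
open scoped BigOperators

namespace Vale.Agent.P159.H873

open Vale.Agent.P159 Vale.Agent.P159.UJ

section Der

variable {G : Type*} [AddCommGroup G] [TopologicalSpace G] [IsTopologicalAddGroup G]
  [CompactSpace G] [SecondCountableTopology G] [MeasurableSpace G] [BorelSpace G]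
  (μ : Measure G) [μ.IsAddHaarMeasure] [IsProbabilityMeasure μ]

/-- derivative of an exponential integral in the coupling -/
theorem hasDerivAt_int {f H D : G → ℝ} (hf : Continuous f) (hH : Continuous H)
    (hD : Continuous D) (u : ℝ) :
    HasDerivAt (fun u : ℝ => ∫ x, f x * Real.exp (H x + u * D x) ∂μ)
      (∫ x, f x * D x * Real.exp (H x + u * D x) ∂μ) u := by
  obtain ⟨Cf, hCf0, hCf⟩ := exists_bound hf
  obtain ⟨CH, hCH0, hCH⟩ := exists_bound hH
  obtain ⟨CD, hCD0, hCD⟩ := exists_bound hD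
  have hc : ∀ v : ℝ, Continuous fun x => f x * Real.exp (H x + v * D x) := fun v =>
    hf.mul (Real.continuous_exp.comp (hH.add (continuous_const.mul hD)))
  have hc' : ∀ v : ℝ, Continuous fun x => f x * D x * Real.exp (H x + v * D x) := fun v =>
    (hf.mul hD).mul (Real.continuous_exp.comp (hH.add (continuous_const.mul hD)))
  refine (hasDerivAt_integral_of_dominated_loc_of_deriv_le (μ := μ)
    (F := fun (v : ℝ) x => f x * Real.exp (H x + v * D x))
    (F' := fun (v : ℝ) x => f x * D x * Real.exp (H x + v * D x))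
    (bound := fun _ => Cf * CD * Real.exp (CH + (|u| + 1) * CD))
    (s := Metric.ball u 1) (Metric.ball_mem_nhds u one_pos)
    (Eventually.of_forall fun v => (hc v).aestronglyMeasurable) (cint (hc u))
    (hc' u).aestronglyMeasurable (Eventually.of_forall fun x v hv => ?_)
    (integrable_const _) (Eventually.of_forall fun x v hv => ?_)).2
  · have hv' : |v| ≤ |u| + 1 := by
      rw [Metric.mem_ball, Real.dist_eq] at hv
      have := abs_sub_abs_le_abs_sub v u
      linarith
    rw [norm_mul, norm_mul, Real.norm_of_nonneg (Real.exp_pos _).le]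
    refine mul_le_mul (mul_le_mul (hCf x) (hCD x) (norm_nonneg _) hCf0)
      (Real.exp_le_exp.2 ?_) (Real.exp_pos _).le (mul_nonneg hCf0 hCD0)
    have h1 : H x ≤ CH := (le_abs_self _).trans (hCH x)
    have h2 : v * D x ≤ |v| * CD := by
      refine (le_abs_self _).trans ?_
      rw [abs_mul]
      exact mul_le_mul_of_nonneg_left (hCD x) (abs_nonneg _)
    have h3 : |v| * CD ≤ (|u| + 1) * CD := mul_le_mul_of_nonneg_right hv' hCD0
    linarith
  · have h1 : HasDerivAt (fun v : ℝ => H x + v * D x) (D x) v := by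
      have := ((hasDerivAt_id v).mul_const (D x)).const_add (H x)
      simpa using this
    have h2 := (h1.exp).const_mul (f x)
    exact h2.congr_deriv (by ring)

/-- Gibbs expectation for the energy `E` -/
noncomputable def gE (E f : G → ℝ) : ℝ :=
  (∫ x, f x * Real.exp (E x) ∂μ) / ∫ x, Real.exp (E x) ∂μ

variable {μ}

theorem wpos {E : G → ℝ} (hE : Continuous E) : 0 < ∫ x, Real.exp (E x) ∂μ :=
  integral_exp_pos (cint (Real.continuous_exp.comp hE))

theorem gE_add {E f g : G → ℝ} (hE : Continuous E) (hf : Continuous f) (hg : Continuous g) :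
    gE μ E (fun x => f x + g x) = gE μ E f + gE μ E g := by
  have h := integral_add (μ := μ) (f := fun x => f x * Real.exp (E x))
    (g := fun x => g x * Real.exp (E x))
    (cint (hf.mul (Real.continuous_exp.comp hE))) (cint (hg.mul (Real.continuous_exp.comp hE)))
  unfold gE
  rw [← add_div, ← h]
  congr 2
  ext x
  ring

theorem gE_smul (E : G → ℝ) (a : ℝ) (f : G → ℝ) :
    gE μ E (fun x => a * f x) = a * gE μ E f := by
  unfold gE
  rw [← mul_div_assoc, ← integral_const_mul]
  congr 2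
  ext x
  ring

theorem gE_zero (E : G → ℝ) : gE μ E (fun _ => 0) = 0 := by
  unfold gE
  simp

theorem gE_sum {E : G → ℝ} (hE : Continuous E) {ι : Type*} (s : Finset ι) (f : ι → G → ℝ)
    (hf : ∀ i, Continuous (f i)) :
    gE μ E (fun x => ∑ i ∈ s, f i x) = ∑ i ∈ s, gE μ E (f i) := by
  classical
  induction s using Finset.induction_on with
  | empty => simpa using gE_zero E
  | insert a s ha ih =>
    simp only [Finset.sum_insert ha]
    rw [gE_add hE (hf a) (continuous_finsetSum _ fun i _ => hf i), ih]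

theorem gE_le_one {E f : G → ℝ} (hE : Continuous E) (hf : Continuous f) (h : ∀ x, f x ≤ 1) :
    gE μ E f ≤ 1 := by
  unfold gE
  rw [div_le_one (wpos hE)]
  refine integral_mono (cint (hf.mul (Real.continuous_exp.comp hE)))
    (cint (Real.continuous_exp.comp hE)) fun x => ?_
  have := mul_le_mul_of_nonneg_right (h x) (Real.exp_pos (E x)).le
  simpa using this

theorem quot_alg (P Q R Z : ℝ) (hZ : Z ≠ 0) :
    (P * Z - Q * R) / Z ^ 2 = P / Z - (Q / Z) * (R / Z) := by
  field_simp

/-- derivative of a Gibbs expectation in the coupling -/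
theorem hasDerivAt_gE {f H D : G → ℝ} (hf : Continuous f) (hH : Continuous H)
    (hD : Continuous D) (u : ℝ) :
    HasDerivAt (fun u : ℝ => gE μ (fun x => H x + u * D x) f)
      (gE μ (fun x => H x + u * D x) (fun x => f x * D x) -
        gE μ (fun x => H x + u * D x) f * gE μ (fun x => H x + u * D x) D) u := by
  have h1 := hasDerivAt_int μ hf hH hD u
  have h2 := hasDerivAt_int μ (f := fun _ => 1) continuous_const hH hD u
  simp only [one_mul] at h2
  have hE : Continuous fun x => H x + u * D x := hH.add (continuous_const.mul hD)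
  have hp := wpos (μ := μ) hE
  have h3 := h1.div h2 hp.ne'
  unfold gE
  exact h3.congr_deriv (quot_alg _ _ _ _ hp.ne')

end Der

section Bond

variable {G : Type*} [AddCommGroup G] [TopologicalSpace G] [IsTopologicalAddGroup G]
  [CompactSpace G] [SecondCountableTopology G] [MeasurableSpace G] [BorelSpace G]
  {μ : Measure G} [μ.IsAddHaarMeasure] [IsProbabilityMeasure μ]
  {κ : Type*} [Fintype κ]

/-- energy, diamagnetic term and current -/
noncomputable def En (J : κ → ℝ) (χ : κ → Chr G) (x : G) : ℝ := ∑ e, J e * (χ e).c x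
noncomputable def Di (J : κ → ℝ) (χ : κ → Chr G) (a : κ → ℝ) (x : G) : ℝ :=
  ∑ e, J e * (a e * a e) * (χ e).c x
noncomputable def Cu (J : κ → ℝ) (χ : κ → Chr G) (a : κ → ℝ) (x : G) : ℝ :=
  ∑ e, J e * a e * (χ e).s x

theorem cont_En (J : κ → ℝ) (χ : κ → Chr G) : Continuous (En J χ) :=
  continuous_finsetSum _ fun e _ => continuous_const.mul (χ e).cont_c
theorem cont_Di (J : κ → ℝ) (χ : κ → Chr G) (a : κ → ℝ) : Continuous (Di J χ a) :=
  continuous_finsetSum _ fun e _ => continuous_const.mul (χ e).cont_c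
theorem cont_Cu (J : κ → ℝ) (χ : κ → Chr G) (a : κ → ℝ) : Continuous (Cu J χ a) :=
  continuous_finsetSum _ fun e _ => continuous_const.mul (χ e).cont_s

/-- stiffness form of the system with one more bond of (real) coupling `ε` and direction `h` -/
noncomputable def Fx (μ : Measure G) (J : κ → ℝ) (χ : κ → Chr G) (a : κ → ℝ) (A : Chr G) (h ε : ℝ) : ℝ :=
  gE μ (fun x => En J χ x + ε * A.c x) (fun x => Di J χ a x + ε * (h * h) * A.c x) -
    gE μ (fun x => En J χ x + ε * A.c x) (fun x => (Cu J χ a x + ε * h * A.s x) *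
      (Cu J χ a x + ε * h * A.s x))

theorem Fx_le (h2 : ∀ g : G, ∃ h : G, h + h = g) {J : κ → ℝ} (hJ : ∀ e, 0 ≤ J e)
    (χ : κ → Chr G) (a : κ → ℝ) (A : Chr G) (h : ℝ) {ε : ℝ} (hε : 0 ≤ ε) :
    Fx μ J χ a A h (-ε) ≤ Fx μ J χ a A h ε := by
  have hJ' : ∀ e, 0 ≤ (Sum.elim J (fun _ : Unit => ε)) e := by
    rintro (e | e)
    · exact hJ e
    · exact hε
  have key := QQ_le μ (Sum.elim J (fun _ : Unit => ε)) (Sum.elim χ (fun _ : Unit => A)) h2 hJ'
    (Sum.elim (fun _ => 0) (fun _ => Real.pi)) (Sum.elim a (fun _ => h))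
  have hH1 : ∀ x, Ht (Sum.elim J (fun _ : Unit => ε)) (Sum.elim χ (fun _ : Unit => A))
      (Sum.elim (fun _ => 0) (fun _ => Real.pi)) x = En J χ x + -ε * A.c x := by
    intro x
    unfold Ht En Ct
    rw [Fintype.sum_sum_type]
    simp
  have hH0 : ∀ x, Ht (Sum.elim J (fun _ : Unit => ε)) (Sum.elim χ (fun _ : Unit => A))
      0 x = En J χ x + ε * A.c x := by
    intro x
    unfold Ht En Ct
    rw [Fintype.sum_sum_type]
    simp
  have hB1 : ∀ x, Bt (Sum.elim J (fun _ : Unit => ε)) (Sum.elim χ (fun _ : Unit => A))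
      (Sum.elim (fun _ => 0) (fun _ => Real.pi)) (Sum.elim a (fun _ => h)) (Sum.elim a (fun _ => h)) x =
      Di J χ a x + -ε * (h * h) * A.c x := by
    intro x
    unfold Bt Di Ct
    rw [Fintype.sum_sum_type]
    simp
  have hB0 : ∀ x, Bt (Sum.elim J (fun _ : Unit => ε)) (Sum.elim χ (fun _ : Unit => A))
      0 (Sum.elim a (fun _ => h)) (Sum.elim a (fun _ => h)) x =
      Di J χ a x + ε * (h * h) * A.c x := by
    intro x
    unfold Bt Di Ct
    rw [Fintype.sum_sum_type]
    simp
  have hS1 : ∀ x, Jt (Sum.elim J (fun _ : Unit => ε)) (Sum.elim χ (fun _ : Unit => A))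
      (Sum.elim (fun _ => 0) (fun _ => Real.pi)) (Sum.elim a (fun _ => h)) x =
      Cu J χ a x + -ε * h * A.s x := by
    intro x
    unfold Jt Cu St
    rw [Fintype.sum_sum_type]
    simp
  have hS0 : ∀ x, Jt (Sum.elim J (fun _ : Unit => ε)) (Sum.elim χ (fun _ : Unit => A))
      0 (Sum.elim a (fun _ => h)) x =
      Cu J χ a x + ε * h * A.s x := by
    intro x
    unfold Jt Cu St
    rw [Fintype.sum_sum_type]
    simp
  have e0 : QQ μ (Sum.elim J (fun _ : Unit => ε)) (Sum.elim χ (fun _ : Unit => A)) 0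
      (Sum.elim a (fun _ => h)) (Sum.elim a (fun _ => h)) = Fx μ J χ a A h ε := by
    unfold QQ
    rw [jm_zero]
    unfold ex Fx gE
    rw [Zr_eq]
    simp only [hH0, hB0, hS0]
    ring
  have e1 : Fx μ J χ a A h (-ε) ≤
      QQ μ (Sum.elim J (fun _ : Unit => ε)) (Sum.elim χ (fun _ : Unit => A))
      (Sum.elim (fun _ => 0) (fun _ => Real.pi))
      (Sum.elim a (fun _ => h)) (Sum.elim a (fun _ => h)) := by
    unfold QQ
    have hj := mul_self_nonneg (jm μ (Sum.elim J (fun _ : Unit => ε)) (Sum.elim χ (fun _ : Unit => A))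
      (Sum.elim (fun _ => 0) (fun _ => Real.pi)) (Sum.elim a (fun _ => h)))
    have h3 : ex μ (Sum.elim J (fun _ : Unit => ε)) (Sum.elim χ (fun _ : Unit => A))
        (Sum.elim (fun _ => 0) (fun _ => Real.pi)) (Bt (Sum.elim J (fun _ : Unit => ε)) (Sum.elim χ (fun _ : Unit => A))
      (Sum.elim (fun _ => 0) (fun _ => Real.pi)) (Sum.elim a (fun _ => h)) (Sum.elim a (fun _ => h))) =
        gE μ (fun x => En J χ x + -ε * A.c x) (fun x => Di J χ a x + -ε * (h * h) * A.c x) := by
      unfold ex gE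
      rw [Zr_eq]
      simp only [hH1, hB1]
    have h4 : ex μ (Sum.elim J (fun _ : Unit => ε)) (Sum.elim χ (fun _ : Unit => A))
        (Sum.elim (fun _ => 0) (fun _ => Real.pi)) (fun x =>
        Jt (Sum.elim J (fun _ : Unit => ε)) (Sum.elim χ (fun _ : Unit => A))
      (Sum.elim (fun _ => 0) (fun _ => Real.pi)) (Sum.elim a (fun _ => h)) x *
        Jt (Sum.elim J (fun _ : Unit => ε)) (Sum.elim χ (fun _ : Unit => A))
      (Sum.elim (fun _ => 0) (fun _ => Real.pi)) (Sum.elim a (fun _ => h)) x) =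
        gE μ (fun x => En J χ x + -ε * A.c x) (fun x => (Cu J χ a x + -ε * h * A.s x) *
      (Cu J χ a x + -ε * h * A.s x)) := by
      unfold ex gE
      rw [Zr_eq]
      simp only [hH1, hS1]
    rw [h3, h4]
    unfold Fx
    linarith
  rw [e0] at key
  exact e1.trans key

/-- covariance -/
noncomputable def cv (μ : Measure G) (E f g : G → ℝ) : ℝ :=
  gE μ E (fun x => f x * g x) - gE μ E f * gE μ E g

/-- the derivative of the stiffness form in the coupling of a bond -/
noncomputable def DD (μ : Measure G) (J : κ → ℝ) (χ : κ → Chr G) (a : κ → ℝ) (A : Chr G) (h : ℝ) : ℝ :=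
  cv μ (En J χ) (Di J χ a) A.c + h * h * gE μ (En J χ) A.c -
    cv μ (En J χ) (fun x => Cu J χ a x * Cu J χ a x) A.c -
    2 * h * gE μ (En J χ) (fun x => Cu J χ a x * A.s x)

theorem DD_nonneg (h2 : ∀ g : G, ∃ h : G, h + h = g) {J : κ → ℝ} (hJ : ∀ e, 0 ≤ J e)
    (χ : κ → Chr G) (a : κ → ℝ) (A : Chr G) (h : ℝ) : 0 ≤ DD μ J χ a A h := by
  have cE := cont_En J χ
  have cB := cont_Di J χ a
  have cS := cont_Cu J χ a
  -- expansion of Fx
  have hF : ∀ ε, Fx μ J χ a A h ε =
      gE μ (fun x => En J χ x + ε * A.c x) (Di J χ a) +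
      ε * (h * h) * gE μ (fun x => En J χ x + ε * A.c x) A.c -
      (gE μ (fun x => En J χ x + ε * A.c x) (fun x => Cu J χ a x * Cu J χ a x) +
      2 * ε * h * gE μ (fun x => En J χ x + ε * A.c x) (fun x => Cu J χ a x * A.s x) +
      ε * ε * (h * h) * gE μ (fun x => En J χ x + ε * A.c x) (fun x => A.s x * A.s x)) := by
    intro ε
    have hE : Continuous fun x => En J χ x + ε * A.c x := cE.add (continuous_const.mul A.cont_c)
    unfold Fx
    congr 1
    · rw [gE_add (g := fun x => ε * (h * h) * A.c x) hE cB (continuous_const.mul A.cont_c),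
        gE_smul]
    · have e1 : (fun x => (Cu J χ a x + ε * h * A.s x) * (Cu J χ a x + ε * h * A.s x)) =
          fun x => (Cu J χ a x * Cu J χ a x + (2 * ε * h) * (Cu J χ a x * A.s x)) +
            (ε * ε * (h * h)) * (A.s x * A.s x) := by
        ext x; ring
      rw [e1, gE_add (f := fun x => Cu J χ a x * Cu J χ a x + (2 * ε * h) * (Cu J χ a x * A.s x))
        (g := fun x => (ε * ε * (h * h)) * (A.s x * A.s x)) hE
        ((cS.mul cS).add (continuous_const.mul (cS.mul A.cont_s)))
        (continuous_const.mul (A.cont_s.mul A.cont_s)),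
        gE_add (f := fun x => Cu J χ a x * Cu J χ a x)
        (g := fun x => (2 * ε * h) * (Cu J χ a x * A.s x)) hE
        (cS.mul cS) (continuous_const.mul (cS.mul A.cont_s)), gE_smul, gE_smul]
  have d1 := hasDerivAt_gE (μ := μ) cB cE A.cont_c 0
  have d2 := hasDerivAt_gE (μ := μ) A.cont_c cE A.cont_c 0
  have d3 := hasDerivAt_gE (μ := μ) (f := fun x => Cu J χ a x * Cu J χ a x)
    (cS.mul cS) cE A.cont_c 0
  have d4 := hasDerivAt_gE (μ := μ) (f := fun x => Cu J χ a x * A.s x)
    (cS.mul A.cont_s) cE A.cont_c 0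
  have d5 := hasDerivAt_gE (μ := μ) (f := fun x => A.s x * A.s x)
    (A.cont_s.mul A.cont_s) cE A.cont_c 0
  have i1 : HasDerivAt (fun ε : ℝ => ε * (h * h)) (h * h) 0 := by
    simpa using (hasDerivAt_id (0 : ℝ)).mul_const (h * h)
  have i2 : HasDerivAt (fun ε : ℝ => 2 * ε * h) (2 * h) 0 := by
    simpa using ((hasDerivAt_id (0 : ℝ)).const_mul 2).mul_const h
  have i3 : HasDerivAt (fun ε : ℝ => ε * ε * (h * h)) 0 0 := by
    have := ((hasDerivAt_id (0 : ℝ)).mul (hasDerivAt_id (0 : ℝ))).mul_const (h * h)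
    simpa using this
  have hd := (d1.add (i1.mul d2)).sub ((d3.add (i2.mul d4)).add (i3.mul d5))
  have hd' : HasDerivAt (fun ε => Fx μ J χ a A h ε) (DD μ J χ a A h) 0 := by
    have hz : (fun x => En J χ x + 0 * A.c x) = En J χ := by ext x; ring
    refine (hd.congr_deriv ?_).congr_of_eventuallyEq (Eventually.of_forall fun ε => ?_)
    · unfold DD cv
      simp only [hz]
      ring
    · exact hF ε
  -- the difference quotient
  have hm : HasDerivAt (fun ε => Fx μ J χ a A h (-ε)) (-(DD μ J χ a A h)) 0 := by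
    have h1 : HasDerivAt (fun ε => Fx μ J χ a A h ε) (DD μ J χ a A h) (-0) := by simpa using hd'
    have := HasDerivAt.comp (0 : ℝ) h1 (hasDerivAt_neg (0 : ℝ))
    rw [mul_neg_one] at this
    exact this
  have hs := hd'.sub hm
  have h0 : ∀ ε : ℝ, 0 ≤ ε → 0 ≤ Fx μ J χ a A h ε - Fx μ J χ a A h (-ε) := fun ε hε => by
    have := Fx_le (μ := μ) h2 hJ χ a A h hε
    linarith
  have hlim := hs.hasDerivWithinAt (s := Set.Ioi 0)
  rw [hasDerivWithinAt_iff_tendsto_slope' (by simp)] at hlim
  have hge : 0 ≤ DD μ J χ a A h - -(DD μ J χ a A h) := by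
    refine ge_of_tendsto hlim ?_
    filter_upwards [self_mem_nhdsWithin] with ε hε
    have hε' : (0 : ℝ) < ε := hε
    rw [slope_def_field]
    have h3 := h0 ε hε'.le
    refine div_nonneg ?_ (by linarith)
    simpa using h3
  linarith

/-- the derivative dominates the square of the response of the current -/
theorem DD_ge (h2 : ∀ g : G, ∃ h : G, h + h = g) {J : κ → ℝ} (hJ : ∀ e, 0 ≤ J e)
    (χ : κ → Chr G) (a : κ → ℝ) (A : Chr G) (h : ℝ) :
    (h * gE μ (En J χ) A.c - gE μ (En J χ) (fun x => Cu J χ a x * A.s x)) ^ 2 ≤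
      DD μ J χ a A h := by
  have hc : gE μ (En J χ) A.c ≤ 1 :=
    gE_le_one (cont_En J χ) A.cont_c fun x => (abs_le.1 (A.abs_c_le x)).2
  obtain ⟨c, hcdef⟩ : ∃ c, c = gE μ (En J χ) A.c := ⟨_, rfl⟩
  obtain ⟨y, hy⟩ : ∃ y, y = gE μ (En J χ) (fun x => Cu J χ a x * A.s x) := ⟨_, rfl⟩
  have h1 := DD_nonneg (μ := μ) h2 hJ χ a A (h - (h * c - y))
  unfold DD at h1 ⊢
  rw [← hcdef] at h1 hc ⊢
  rw [← hy] at h1 ⊢
  nlinarith [sq_nonneg (h * c - y), mul_nonneg (sub_nonneg.2 hc) (sq_nonneg (h * c - y))]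

end Bond

section Scale

variable {G : Type*} [AddCommGroup G] [TopologicalSpace G] [IsTopologicalAddGroup G]
  [CompactSpace G] [SecondCountableTopology G] [MeasurableSpace G] [BorelSpace G]
  {μ : Measure G} [μ.IsAddHaarMeasure] [IsProbabilityMeasure μ]
  {κ : Type*} [Fintype κ]

theorem En_smul (b : ℝ) (w : κ → ℝ) (χ : κ → Chr G) :
    En (fun e => b * w e) χ = fun x => 0 + b * En w χ x := by
  ext x
  unfold En
  rw [zero_add, Finset.mul_sum]
  exact Finset.sum_congr rfl fun e _ => by ring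

theorem Di_smul (b : ℝ) (w : κ → ℝ) (χ : κ → Chr G) (a : κ → ℝ) :
    Di (fun e => b * w e) χ a = fun x => b * Di w χ a x := by
  ext x
  unfold Di
  rw [Finset.mul_sum]
  exact Finset.sum_congr rfl fun e _ => by ring

theorem Cu_smul (b : ℝ) (w : κ → ℝ) (χ : κ → Chr G) (a : κ → ℝ) :
    Cu (fun e => b * w e) χ a = fun x => b * Cu w χ a x := by
  ext x
  unfold Cu
  rw [Finset.mul_sum]
  exact Finset.sum_congr rfl fun e _ => by ring

/-- the stiffness form at the inverse temperature `b` -/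
noncomputable def qf (μ : Measure G) (w : κ → ℝ) (χ : κ → Chr G) (a : κ → ℝ) (b : ℝ) : ℝ :=
  Qform μ (fun e => b * w e) χ a

theorem qf_eq (w : κ → ℝ) (χ : κ → Chr G) (a : κ → ℝ) (b : ℝ) :
    qf μ w χ a b = b * gE μ (fun x => 0 + b * En w χ x) (Di w χ a) -
      b ^ 2 * gE μ (fun x => 0 + b * En w χ x) (fun x => Cu w χ a x * Cu w χ a x) := by
  have e1 : (fun x => ∑ e, b * w e * a e ^ 2 * (χ e).c x) = fun x => b * Di w χ a x := by
    ext x
    unfold Di
    rw [Finset.mul_sum]
    exact Finset.sum_congr rfl fun e _ => by ring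
  have e2 : (fun x => (∑ e, b * w e * a e * (χ e).s x) ^ 2) =
      fun x => b ^ 2 * (Cu w χ a x * Cu w χ a x) := by
    ext x
    have : ∑ e, b * w e * a e * (χ e).s x = b * Cu w χ a x := by
      unfold Cu
      rw [Finset.mul_sum]
      exact Finset.sum_congr rfl fun e _ => by ring
    rw [this]
    ring
  have e3 : ∀ f : G → ℝ, gibbs μ (fun e => b * w e) χ f =
      gE μ (fun x => 0 + b * En w χ x) f := by
    intro f
    rw [← En_smul]
    rfl
  unfold qf Qform
  rw [e1, e2, e3, e3, gE_smul, gE_smul]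

theorem hasDerivAt_qf (w : κ → ℝ) (χ : κ → Chr G) (a : κ → ℝ) (b : ℝ) :
    HasDerivAt (qf μ w χ a)
      (∑ e, w e * DD μ (fun e => b * w e) χ a (χ e) (a e)) b := by
  have cW := cont_En w χ
  have cB := cont_Di w χ a
  have cS := cont_Cu w χ a
  have d1 := hasDerivAt_gE (μ := μ) (H := fun _ => 0) cB continuous_const cW b
  have d2 := hasDerivAt_gE (μ := μ) (f := fun x => Cu w χ a x * Cu w χ a x)
    (H := fun _ => 0) (cS.mul cS) continuous_const cW b
  have i1 : HasDerivAt (fun b : ℝ => b) 1 b := hasDerivAt_id b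
  have i2 : HasDerivAt (fun b : ℝ => b ^ 2) (2 * b) b := by
    simpa using hasDerivAt_pow 2 b
  have hd := (i1.mul d1).sub (i2.mul d2)
  refine (hd.congr_deriv ?_).congr_of_eventuallyEq (Eventually.of_forall fun b => ?_)
  swap
  · exact qf_eq w χ a b
  -- the algebra
  obtain ⟨E, hE⟩ : ∃ E : G → ℝ, E = fun x => 0 + b * En w χ x := ⟨_, rfl⟩
  have cE : Continuous E := by rw [hE]; exact continuous_const.add (continuous_const.mul cW)
  have hsum : ∀ f : G → ℝ, Continuous f →
      gE μ E (fun x => f x * En w χ x) = ∑ e, w e * gE μ E (fun x => f x * (χ e).c x) := by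
    intro f hf
    have e1 : (fun x => f x * En w χ x) = fun x => ∑ e, w e * (f x * (χ e).c x) := by
      ext x
      unfold En
      rw [Finset.mul_sum]
      exact Finset.sum_congr rfl fun e _ => by ring
    rw [e1, gE_sum cE _ (fun e x => w e * (f x * (χ e).c x))
      fun e => continuous_const.mul (hf.mul (χ e).cont_c)]
    exact Finset.sum_congr rfl fun e _ => gE_smul E (w e) _
  have hW : gE μ E (En w χ) = ∑ e, w e * gE μ E (χ e).c := by
    have := hsum (fun _ => 1) continuous_const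
    simpa using this
  have hB : gE μ E (Di w χ a) = ∑ e, w e * (a e * a e * gE μ E (χ e).c) := by
    have e1 : Di w χ a = fun x => ∑ e, w e * (a e * a e) * (χ e).c x := rfl
    rw [e1, gE_sum cE _ (fun e x => w e * (a e * a e) * (χ e).c x)
      fun e => continuous_const.mul (χ e).cont_c]
    refine Finset.sum_congr rfl fun e _ => ?_
    rw [gE_smul]
    ring
  have hC : gE μ E (fun x => Cu w χ a x * Cu w χ a x) =
      ∑ e, w e * (a e * gE μ E (fun x => Cu w χ a x * (χ e).s x)) := by
    have e1 : (fun x => Cu w χ a x * Cu w χ a x) =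
        fun x => ∑ e, w e * a e * (Cu w χ a x * (χ e).s x) := by
      ext x
      conv_lhs => rw [show Cu w χ a x * Cu w χ a x = Cu w χ a x * ∑ e, w e * a e * (χ e).s x from rfl]
      rw [Finset.mul_sum]
      exact Finset.sum_congr rfl fun e _ => by ring
    rw [e1, gE_sum cE _ (fun e x => w e * a e * (Cu w χ a x * (χ e).s x))
      fun e => continuous_const.mul (cS.mul (χ e).cont_s)]
    refine Finset.sum_congr rfl fun e _ => ?_
    rw [gE_smul]
    ring
  have hDD : ∀ e, DD μ (fun e => b * w e) χ a (χ e) (a e) =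
      b * (gE μ E (fun x => Di w χ a x * (χ e).c x) - gE μ E (Di w χ a) * gE μ E (χ e).c) +
      a e * a e * gE μ E (χ e).c -
      b ^ 2 * (gE μ E (fun x => Cu w χ a x * Cu w χ a x * (χ e).c x) -
        gE μ E (fun x => Cu w χ a x * Cu w χ a x) * gE μ E (χ e).c) -
      2 * b * (a e * gE μ E (fun x => Cu w χ a x * (χ e).s x)) := by
    intro e
    unfold DD cv
    rw [En_smul, Di_smul, Cu_smul, ← hE]
    have f1 : (fun x => b * Di w χ a x * (χ e).c x) = fun x => b * (Di w χ a x * (χ e).c x) := by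
      ext x; ring
    have f2 : (fun x => b * Cu w χ a x * (b * Cu w χ a x) * (χ e).c x) =
        fun x => b ^ 2 * (Cu w χ a x * Cu w χ a x * (χ e).c x) := by
      ext x; ring
    have f3 : (fun x => b * Cu w χ a x * (b * Cu w χ a x)) =
        fun x => b ^ 2 * (Cu w χ a x * Cu w χ a x) := by
      ext x; ring
    have f4 : (fun x => b * Cu w χ a x * (χ e).s x) = fun x => b * (Cu w χ a x * (χ e).s x) := by
      ext x; ring
    rw [f1, f2, f3, f4, gE_smul, gE_smul, gE_smul, gE_smul, gE_smul]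
    ring
  simp only [hDD]
  rw [← hE, hsum _ cB, hsum (fun x => Cu w χ a x * Cu w χ a x) (cS.mul cS), hW]
  have g1 : ∑ e, w e * (b * (gE μ E (fun x => Di w χ a x * (χ e).c x) -
      gE μ E (Di w χ a) * gE μ E (χ e).c) +
      a e * a e * gE μ E (χ e).c -
      b ^ 2 * (gE μ E (fun x => Cu w χ a x * Cu w χ a x * (χ e).c x) -
        gE μ E (fun x => Cu w χ a x * Cu w χ a x) * gE μ E (χ e).c) -
      2 * b * (a e * gE μ E (fun x => Cu w χ a x * (χ e).s x))) =
      b * (∑ e, w e * gE μ E (fun x => Di w χ a x * (χ e).c x)) -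
      b * gE μ E (Di w χ a) * (∑ e, w e * gE μ E (χ e).c) +
      (∑ e, w e * (a e * a e * gE μ E (χ e).c)) -
      b ^ 2 * (∑ e, w e * gE μ E (fun x => Cu w χ a x * Cu w χ a x * (χ e).c x)) +
      b ^ 2 * gE μ E (fun x => Cu w χ a x * Cu w χ a x) * (∑ e, w e * gE μ E (χ e).c) -
      2 * b * (∑ e, w e * (a e * gE μ E (fun x => Cu w χ a x * (χ e).s x))) := by
    simp only [Finset.mul_sum, ← Finset.sum_add_distrib, ← Finset.sum_sub_distrib]
    exact Finset.sum_congr rfl fun e _ => by ring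
  rw [g1, ← hB, ← hC]
  ring

/-- the renormalisation inequality -/
theorem qf_ineq (h2 : ∀ g : G, ∃ h : G, h + h = g) {w : κ → ℝ} (hw : ∀ e, 0 ≤ w e)
    (χ : κ → Chr G) (a : κ → ℝ) {b : ℝ} (hb : 0 < b) :
    (qf μ w χ a b / b) ^ 2 ≤ (∑ e, w e * a e ^ 2) *
      ∑ e, w e * DD μ (fun e => b * w e) χ a (χ e) (a e) := by
  have cW := cont_En w χ
  have cB := cont_Di w χ a
  have cS := cont_Cu w χ a
  obtain ⟨E, hE⟩ : ∃ E : G → ℝ, E = En (fun e => b * w e) χ := ⟨_, rfl⟩
  have cE : Continuous E := by rw [hE]; exact cont_En _ χ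
  obtain ⟨i, hi⟩ : ∃ i : κ → ℝ, i = fun e => a e * gE μ E (χ e).c -
      gE μ E (fun x => Cu (fun e => b * w e) χ a x * (χ e).s x) := ⟨_, rfl⟩
  have hge : ∀ e, i e ^ 2 ≤ DD μ (fun e => b * w e) χ a (χ e) (a e) := by
    intro e
    rw [hi, hE]
    exact DD_ge h2 (fun e => mul_nonneg hb.le (hw e)) χ a (χ e) (a e)
  have hq : qf μ w χ a b / b = ∑ e, w e * a e * i e := by
    rw [qf_eq, hi]
    have hE' : (fun x => 0 + b * En w χ x) = E := by rw [hE, En_smul]
    rw [hE']
    have hB : gE μ E (Di w χ a) = ∑ e, w e * (a e * a e * gE μ E (χ e).c) := by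
      have e1 : Di w χ a = fun x => ∑ e, w e * (a e * a e) * (χ e).c x := rfl
      rw [e1, gE_sum cE _ (fun e x => w e * (a e * a e) * (χ e).c x)
        fun e => continuous_const.mul (χ e).cont_c]
      refine Finset.sum_congr rfl fun e _ => ?_
      rw [gE_smul]
      ring
    have hC : gE μ E (fun x => Cu w χ a x * Cu w χ a x) =
        ∑ e, w e * (a e * gE μ E (fun x => Cu w χ a x * (χ e).s x)) := by
      have e1 : (fun x => Cu w χ a x * Cu w χ a x) =
          fun x => ∑ e, w e * a e * (Cu w χ a x * (χ e).s x) := by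
        ext x
        conv_lhs => rw [show Cu w χ a x * Cu w χ a x =
          Cu w χ a x * ∑ e, w e * a e * (χ e).s x from rfl]
        rw [Finset.mul_sum]
        exact Finset.sum_congr rfl fun e _ => by ring
      rw [e1, gE_sum cE _ (fun e x => w e * a e * (Cu w χ a x * (χ e).s x))
        fun e => continuous_const.mul (cS.mul (χ e).cont_s)]
      refine Finset.sum_congr rfl fun e _ => ?_
      rw [gE_smul]
      ring
    have f4 : ∀ e, gE μ E (fun x => Cu (fun e => b * w e) χ a x * (χ e).s x) =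
        b * gE μ E (fun x => Cu w χ a x * (χ e).s x) := by
      intro e
      rw [Cu_smul, ← gE_smul]
      congr 1
      ext x; ring
    simp only [f4]
    rw [hB, hC]
    have hb' := hb.ne'
    field_simp
    rw [Finset.mul_sum, ← Finset.sum_sub_distrib]
    exact Finset.sum_congr rfl fun e _ => by ring
  have hcs : (∑ e, w e * a e * i e) ^ 2 ≤ (∑ e, w e * a e ^ 2) * ∑ e, w e * i e ^ 2 := by
    have h1 := Finset.sum_mul_sq_le_sq_mul_sq Finset.univ (fun e => Real.sqrt (w e) * a e)
      (fun e => Real.sqrt (w e) * i e)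
    have e1 : ∀ e, Real.sqrt (w e) * a e * (Real.sqrt (w e) * i e) = w e * a e * i e := by
      intro e
      have := Real.mul_self_sqrt (hw e)
      linear_combination (a e * i e) * this
    have e2 : ∀ f : κ → ℝ, ∀ e, (Real.sqrt (w e) * f e) ^ 2 = w e * f e ^ 2 := by
      intro f e
      rw [mul_pow, Real.sq_sqrt (hw e)]
    simp only [e1, e2] at h1
    exact h1
  rw [hq]
  refine hcs.trans (mul_le_mul_of_nonneg_left ?_ ?_)
  · exact Finset.sum_le_sum fun e _ => mul_le_mul_of_nonneg_left (hge e) (hw e)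
  · exact Finset.sum_nonneg fun e _ => mul_nonneg (hw e) (sq_nonneg _)

end Scale

end Vale.Agent.P159.H873
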